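import Vale.Agent.P106.AN275.B12
import Vale.Agent.P106.H731.StL
import Vale.Agent.P106.H466.Amp
import Vale.Agent.P106.W840.Sum

/-! # P106 / AN275 : `StB1`, `StB2`, `StAMP` from the two Fourier lemmas (helper275) -/

open MeasureTheory Complex Set
open Vale.Agent.P122.C2 (Z2 fw fn par kids Cap)
open Vale.Agent.P106.W (Nd s0 tl Amp)
open scoped ENNReal NNReal FourierTransform

set_option linter.all false

namespace Vale.Agent.P106.AN275

open Vale.Agent.P106.AN

theorem childGau : ChildGau 9 := fun h n i hh σ τ' hk θ R1 R2 h1 h2 h1' h2' p hp0 hp1 hp2 hn x =>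
  H731.child_gau hh σ hk θ R1 R2 h1 h2 h1' h2' p hp0 hp1 hp2 hn x

theorem stB1 (hREP : StREP) (hORT : StORT) (hWI : StWI) : StB1 := stB1_of hREP hORT W840.stWS hWI (by norm_num) childGau

theorem stB2 (hREP : StREP) (hORT : StORT) (hWI : StWI) : StB2 := stB2_of hREP hORT W840.stWS hWI (by norm_num) childGau

theorem stAMP (hREP : StREP) (hORT : StORT) (hWI : StWI) : StAMP :=
  H466.stAMP_of hREP hWI (H731.stL_of hREP hWI) (stB1 hREP hORT hWI) (stB2 hREP hORT hWI)

end Vale.Agent.P106.AN275
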