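import Vale.Agent.P106.AN275.BAbs

/-! # P106 / AN275 : `StB1`, `StB2` (helper275; port of P122/AN275/B12) -/

open MeasureTheory Complex Set
open Vale.Agent.P122.C2 (Z2 fw fn par kids Cap)
open Vale.Agent.P106.W (Nd s0 tl Amp)
open scoped ENNReal NNReal FourierTransform

set_option linter.all false

namespace Vale.Agent.P106.AN275

open Vale.Agent.P106.AN

theorem pw2 (n i : ℕ) : (2:ℝ) ^ (2 * i * n) = (2 ^ (i * n)) ^ 2 := by
  rw [← pow_mul]; congr 1; ring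

theorem pwh (h n i : ℕ) : (2:ℝ) ^ (h * n + 4 * i * n) = 2 ^ (h * n) * (2 ^ (i * n)) ^ 4 := by
  rw [pow_add, ← pow_mul (2:ℝ) (i * n) 4]; congr 2; ring

theorem pws (n i : ℕ) : (2:ℝ) ^ ((i + 1) * n) = 2 ^ (i * n) * 2 ^ n := by
  rw [← pow_add]; congr 1; ring

theorem o_near {n : ℕ} {S σ : Nd} (h : S.sg n = σ) (k : Fin 2) : |(S.b.o k : ℝ) - 2 ^ n * σ.b.o k| ≤ 2 ^ n := by
  have a : S.b.o k / 2 ^ n = σ.b.o k := sg_o h k
  have hm := Int.mul_ediv_add_emod (S.b.o k) (2 ^ n)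
  have c1 : 0 ≤ S.b.o k % 2 ^ n := Int.emod_nonneg _ (by positivity)
  have c2 : S.b.o k % 2 ^ n < 2 ^ n := Int.emod_lt_of_pos _ (by positivity)
  rw [a] at hm
  have h1 : |S.b.o k - 2 ^ n * σ.b.o k| ≤ 2 ^ n := by
    rw [abs_le]; constructor <;> linarith
  exact_mod_cast h1

theorem o_diff {n : ℕ} {S S0 σ : Nd} (h : S.sg n = σ) (h0 : S0.sg n = σ) (k : Fin 2) : |(S.b.o k : ℝ) - S0.b.o k| ≤ 2 ^ n := by
  have a : S.b.o k / 2 ^ n = σ.b.o k := sg_o h k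
  have b : S0.b.o k / 2 ^ n = σ.b.o k := sg_o h0 k
  have hm := Int.mul_ediv_add_emod (S.b.o k) (2 ^ n)
  have hm0 := Int.mul_ediv_add_emod (S0.b.o k) (2 ^ n)
  have c1 : 0 ≤ S.b.o k % 2 ^ n := Int.emod_nonneg _ (by positivity)
  have c2 : S.b.o k % 2 ^ n < 2 ^ n := Int.emod_lt_of_pos _ (by positivity)
  have d1 : 0 ≤ S0.b.o k % 2 ^ n := Int.emod_nonneg _ (by positivity)
  have d2 : S0.b.o k % 2 ^ n < 2 ^ n := Int.emod_lt_of_pos _ (by positivity)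
  rw [a] at hm
  rw [b] at hm0
  have h1 : |S.b.o k - S0.b.o k| ≤ 2 ^ n := by
    rw [abs_le]; constructor <;> linarith
  exact_mod_cast h1

theorem bp_zero (h n i : ℕ) (S : Nd) : bp h n i S 0 = 2 ^ (i * n) * (S.b.o 0 : ℝ) := rfl
theorem bp_one (h n i : ℕ) (S : Nd) : bp h n i S 1 = 2 ^ (i * n) * (S.b.o 1 : ℝ) := rfl
theorem bp_two (h n i : ℕ) (S : Nd) : bp h n i S 2 = 2 ^ (2 * i * n) * (S.b.T : ℝ) := rfl
theorem nl_bp {h n i : ℕ} {S σ : Nd} (hS : S.sg n = σ) : nl (s0 n i σ.b.τ) (bp h n i S) = 2 ^ (h * n) * (σ.w : ℝ) := by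
  rw [bp_sg hS, nl_pt, sg_w hS]

/-- the base points of the nodes of `σ` are near the corner of `σ` -/
theorem near_k {n : ℕ} (i : ℕ) {S σ : Nd} (hS : S.sg n = σ) (k : Fin 2) :
    |2 ^ (i * n) * (S.b.o k : ℝ) - 2 ^ ((i + 1) * n) * (σ.b.o k : ℝ)| ≤ 2 ^ ((i + 1) * n) := by
  have hi0 : (0:ℝ) < 2 ^ (i * n) := by positivity
  have e : 2 ^ (i * n) * (S.b.o k : ℝ) - 2 ^ ((i + 1) * n) * (σ.b.o k : ℝ) = 2 ^ (i * n) * ((S.b.o k : ℝ) - 2 ^ n * σ.b.o k) := by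
    rw [pws]; ring
  rw [e, abs_mul, abs_of_pos hi0, pws]
  exact mul_le_mul_of_nonneg_left (o_near hS k) hi0.le

/-- monotonicity of `am2` in the exponent -/
theorem am2_anti {M M' : ℕ} (hM : M ≤ M') (h n i : ℕ) (S : Nd) (f : E4 → ℂ) : am2 M' h n i S f ≤ am2 M h n i S f := by
  unfold am2
  refine mul_le_mul' le_rfl (lintegral_mono fun z => mul_le_mul' le_rfl ?_)
  unfold wN
  exact wg_anti hM (by positivity) (by positivity) (by positivity) (by positivity) _ _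

/-- [B1] -/
theorem lem_B1 (hREP : StREP) (hORT : StORT) (hWS : StWS) (hWI : StWI) {cg : ℝ} (hcg : 1 ≤ cg) (hCG : ChildGau cg) (h M : ℕ)
    (hh : 1 ≤ h) (C0 : ℝ) (hC0 : 1 ≤ C0) :
    ∃ C : ℝ, 0 ≤ C ∧ ∀ (K n : ℕ) (ρ : ℝ) (g : Z2 → E4 → ℂ), Dat C0 (h * n) K n ρ g → ∀ i < K, ∀ (σ : Nd) (G : Finset Z2),
      G ⊆ kids n σ.b.τ → ∀ U : Finset Nd, (∀ S ∈ U, S.sg n = σ) →
      ∑ S ∈ U, am2 (M + 9) h n i S (fun z => ∑ τ' ∈ G, pie K n g (i + 1) τ' z) ≤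
        ENNReal.ofReal (C * 2 ^ (2 * n)) * ∑ τ' ∈ G, am2 M h n (i + 1) (σ.ch n h i τ') (pie K n g (i + 1) τ') := by
  have hcD : 1 ≤ max (cD C0) 2 := le_trans (by norm_num) (le_max_right _ _)
  obtain ⟨C, hC, hB⟩ := B_abs hREP hORT hWS hWI hcg hCG M (max (cD C0) 2) hcD
  obtain ⟨m, hm⟩ := near1 hC0
  refine ⟨C * m, by positivity, ?_⟩
  intro K n ρ g hD i hi σ G hG U hU
  have hn : n ≤ h * n := Nat.le_mul_of_pos_left n (by omega)
  have hpow : (2:ℝ) ^ (i * n) ≤ 2 ^ ((i + 1) * n) := pow_le_pow_right₀ (by norm_num) (Nat.mul_le_mul_right n (by omega))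
  set p : E4 := pt (2 ^ (h * n)) (2 ^ ((i + 1) * n)) (2 ^ (2 * i * n) * (σ.b.T : ℝ)) (s0 n i σ.b.τ) σ.b.o σ.w with hp
  have ha0 : (0:ℝ) < 2 ^ ((i + 1) * n) := by positivity
  have q0 : p 0 = 2 ^ ((i + 1) * n) * (σ.b.o 0 : ℝ) := rfl
  have q1 : p 1 = 2 ^ ((i + 1) * n) * (σ.b.o 1 : ℝ) := rfl
  have q2 : p 2 = 2 ^ (2 * i * n) * (σ.b.T : ℝ) := rfl
  have qw : nl (s0 n i σ.b.τ) p = 2 ^ (h * n) * (σ.w : ℝ) := nl_pt _ _ _ _ _ _
  have key := hB h n i σ 0 (2 ^ ((i + 1) * n)) (2 ^ ((i + 1) * n)) p U G (gs K n g (i + 1)) m hh hpow hpow le_rfl le_rfl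
    (by rw [q0, sub_self, abs_zero]; positivity) (by rw [q1, sub_self, abs_zero]; positivity) q2
    (by rw [qw, sub_self, abs_zero]; positivity) hU (by
      intro S hS'
      have h2 : (bp h n i S - p) 2 = 0 := by
        have e : (bp h n i S - p) 2 = 2 ^ (2 * i * n) * (S.b.T : ℝ) - 2 ^ (2 * i * n) * (σ.b.T : ℝ) := rfl
        rw [e, sg_T (hU S hS'), sub_self]
      have hw : nl (s0 n i σ.b.τ) (bp h n i S - p) = 0 := by
        rw [nl_sub, nl_bp (hU S hS'), qw, sub_self]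
      have d0 : |dv (s0 n i σ.b.τ) (bp h n i S - p) 0| / 2 ^ ((i + 1) * n) ≤ 1 := by
        rw [dv_zero, h2, mul_zero, sub_zero, div_le_one ha0]
        exact near_k i (hU S hS') 0
      have d1 : |dv (s0 n i σ.b.τ) (bp h n i S - p) 1| / 2 ^ ((i + 1) * n) ≤ 1 := by
        rw [dv_one, h2, mul_zero, sub_zero, div_le_one ha0]
        exact near_k i (hU S hS') 1
      refine le_trans ?_ (le_max_right _ _)
      unfold gau
      rw [h2, hw, abs_zero, zero_div, zero_div, fw_zero_frame, fn_zero_frame]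
      linarith) hG (fun τ' _ => integrable_gs hD.int _ _)
    (fun τ' _ => dual_ex hD hC0 (le_max_left _ _) (show i + 1 ≤ K from hi) τ')
    (fun k hk J hJ hl => hm (h * n) K n ρ g hD hn i hi σ.b.τ G hG k hk J hJ hl)
  simp only [inv_gs hD.int] at key
  refine key.trans (le_of_eq ?_)
  congr 2
  rw [pwh, pw2, pws]
  have e2 : (2:ℝ) ^ (2 * n) = 2 ^ n * 2 ^ n := by rw [← pow_add]; congr 1; ring
  rw [e2]
  have h1 : (2:ℝ) ^ (i * n) ≠ 0 := by positivity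
  have h2 : (2:ℝ) ^ (h * n) ≠ 0 := by positivity
  field_simp

/-- [B2] -/
theorem lem_B2 (hREP : StREP) (hORT : StORT) (hWS : StWS) (hWI : StWI) {cg : ℝ} (hcg : 1 ≤ cg) (hCG : ChildGau cg) (h M : ℕ)
    (hh : 1 ≤ h) (C0 : ℝ) (hC0 : 1 ≤ C0) :
    ∃ C : ℝ, 0 ≤ C ∧ ∀ (K n : ℕ) (ρ : ℝ) (g : Z2 → E4 → ℂ), Dat C0 (h * n) K n ρ g → ∀ (i : ℕ) (θ : ℝ), i < K →
      ∀ (σ : Nd) (G : Finset Z2) (q : ℕ), G ⊆ kids n σ.b.τ →
      (∀ r : ℝ, (G.filter fun τ' => |fw θ (fun j => (τ' j : ℝ)) - r| ≤ 1).card ≤ q) →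
      ∀ (U : Finset Nd) (r : ℝ), (∀ S ∈ U, S.sg n = σ ∧ |fn θ (fun j => (S.b.o j : ℝ)) - r| ≤ 1) →
      ∑ S ∈ U, am2 (M + 9) h n i S (fun z => ∑ τ' ∈ G, pie K n g (i + 1) τ' z) ≤
        ENNReal.ofReal (C * 2 ^ n * q) * ∑ τ' ∈ G, am2 M h n (i + 1) (σ.ch n h i τ') (pie K n g (i + 1) τ') := by
  have hcD : 1 ≤ max (cD C0) 4 := le_trans (by norm_num) (le_max_right _ _)
  obtain ⟨C, hC, hB⟩ := B_abs hREP hORT hWS hWI hcg hCG M (max (cD C0) 4) hcD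
  obtain ⟨m, hm⟩ := near2 hC0
  refine ⟨C * m, by positivity, ?_⟩
  intro K n ρ g hD i θ hi σ G q hG hq U r hU
  rcases U.eq_empty_or_nonempty with rfl | ⟨S0, hS0⟩
  · simp
  have hn : n ≤ h * n := Nat.le_mul_of_pos_left n (by omega)
  have hpow : (2:ℝ) ^ (i * n) ≤ 2 ^ ((i + 1) * n) := pow_le_pow_right₀ (by norm_num) (Nat.mul_le_mul_right n (by omega))
  have hU1 : ∀ S ∈ U, S.sg n = σ := fun S h => (hU S h).1
  have hi0 : (0:ℝ) < 2 ^ (i * n) := by positivity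
  have hn0 : (0:ℝ) < 2 ^ n := by positivity
  have hS0' := hU1 S0 hS0
  have key := hB h n i σ θ (2 ^ ((i + 1) * n)) (2 ^ (i * n)) (bp h n i S0) U G (gs K n g (i + 1)) (m * q) hh hpow le_rfl le_rfl hpow
    (near_k i hS0' 0) (near_k i hS0' 1) (by rw [bp_two, sg_T hS0'])
    (by rw [nl_bp hS0', sub_self, abs_zero]; positivity) hU1 (by
      intro S hS'
      have h2 : (bp h n i S - bp h n i S0) 2 = 0 := by
        have e : (bp h n i S - bp h n i S0) 2 = 2 ^ (2 * i * n) * (S.b.T : ℝ) - 2 ^ (2 * i * n) * (S0.b.T : ℝ) := rfl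
        rw [e, sg_T (hU1 S hS'), sg_T hS0', sub_self]
      have hw : nl (s0 n i σ.b.τ) (bp h n i S - bp h n i S0) = 0 := by
        rw [nl_sub, nl_bp (hU1 S hS'), nl_bp hS0', sub_self]
      have hdv : dv (s0 n i σ.b.τ) (bp h n i S - bp h n i S0) = fun k => 2 ^ (i * n) * ((S.b.o k : ℝ) - S0.b.o k) := by
        ext k
        fin_cases k
        · show dv (s0 n i σ.b.τ) (bp h n i S - bp h n i S0) 0 = 2 ^ (i * n) * ((S.b.o 0 : ℝ) - S0.b.o 0)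
          rw [dv_zero, h2]
          have e : (bp h n i S - bp h n i S0) 0 = 2 ^ (i * n) * (S.b.o 0 : ℝ) - 2 ^ (i * n) * (S0.b.o 0 : ℝ) := rfl
          rw [e]; ring
        · show dv (s0 n i σ.b.τ) (bp h n i S - bp h n i S0) 1 = 2 ^ (i * n) * ((S.b.o 1 : ℝ) - S0.b.o 1)
          rw [dv_one, h2]
          have e : (bp h n i S - bp h n i S0) 1 = 2 ^ (i * n) * (S.b.o 1 : ℝ) - 2 ^ (i * n) * (S0.b.o 1 : ℝ) := rfl
          rw [e]; ring
      refine le_trans ?_ (le_max_right _ _)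
      unfold gau
      rw [h2, hw, abs_zero, zero_div, zero_div, hdv]
      have f1 : fw θ (fun k => 2 ^ (i * n) * ((S.b.o k : ℝ) - S0.b.o k)) = 2 ^ (i * n) * fw θ (fun k => (S.b.o k : ℝ) - S0.b.o k) := by
        unfold fw; ring
      have f2 : fn θ (fun k => 2 ^ (i * n) * ((S.b.o k : ℝ) - S0.b.o k)) =
          2 ^ (i * n) * (fn θ (fun k => (S.b.o k : ℝ)) - fn θ (fun k => (S0.b.o k : ℝ))) := by
        unfold fn; ring
      rw [f1, f2, abs_mul, abs_mul, abs_of_pos hi0, pws]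
      have g1 := abs_fw_le θ (fun k => (S.b.o k : ℝ) - S0.b.o k)
      have g2 := o_diff (hU1 S hS') hS0' 0
      have g3 := o_diff (hU1 S hS') hS0' 1
      have g4 := (hU S hS').2
      have g5 := (hU S0 hS0).2
      have g6 : |fn θ (fun k => (S.b.o k : ℝ)) - fn θ (fun k => (S0.b.o k : ℝ))| ≤ 2 := by
        have : fn θ (fun k => (S.b.o k : ℝ)) - fn θ (fun k => (S0.b.o k : ℝ)) =
          (fn θ (fun j => (S.b.o j : ℝ)) - r) - (fn θ (fun j => (S0.b.o j : ℝ)) - r) := by ring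
        rw [this]
        exact (abs_sub _ _).trans (by linarith)
      have t1 : 2 ^ (i * n) * |fw θ (fun k => (S.b.o k : ℝ) - S0.b.o k)| / (2 ^ (i * n) * 2 ^ n) ≤ 2 := by
        rw [mul_div_mul_left _ _ hi0.ne', div_le_iff₀ hn0]
        linarith
      have t2 : 2 ^ (i * n) * |fn θ (fun k => (S.b.o k : ℝ)) - fn θ (fun k => (S0.b.o k : ℝ))| / 2 ^ (i * n) ≤ 2 := by
        rw [mul_div_assoc, mul_div_cancel₀ _ hi0.ne']
        exact g6
      linarith) hG (fun τ' _ => integrable_gs hD.int _ _)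
    (fun τ' _ => dual_ex hD hC0 (le_max_left _ _) (show i + 1 ≤ K from hi) τ')
    (fun k hk J hJ hl => hm (h * n) K n ρ g hD hn i hi σ.b.τ θ G hG q hq k hk J hJ hl)
  simp only [inv_gs hD.int] at key
  refine key.trans (le_of_eq ?_)
  congr 2
  rw [pwh, pw2, pws]
  have h1 : (2:ℝ) ^ (i * n) ≠ 0 := by positivity
  have h2 : (2:ℝ) ^ (h * n) ≠ 0 := by positivity
  push_cast
  field_simp

theorem ex_succ {K M i : ℕ} (hi : i < K) : ex K M i = ex K M (i + 1) + 10 := by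
  unfold ex; omega

/-- `StB1` -/
theorem stB1_of (hREP : StREP) (hORT : StORT) (hWS : StWS) (hWI : StWI) {cg : ℝ} (hcg : 1 ≤ cg) (hCG : ChildGau cg) : StB1 := by
  intro K h M C0 hh hM hC0
  choose Cf hCf hB using fun M' : ℕ => lem_B1 hREP hORT hWS hWI hcg hCG h M' hh C0 hC0
  refine ⟨∑ j ∈ Finset.range (K + 1), Cf (M + 10 * j), Finset.sum_nonneg fun j _ => hCf _, ?_⟩
  intro n ρ g hD i hi σ G hcap hG U hU
  have hle : Cf (ex K M (i + 1)) ≤ ∑ j ∈ Finset.range (K + 1), Cf (M + 10 * j) :=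
    Finset.single_le_sum (f := fun j => Cf (M + 10 * j)) (fun j _ => hCf _) (Finset.mem_range.2 (by omega : K - (i + 1) < K + 1))
  calc ∑ S ∈ U, am2 (ex K M i) h n i S (fun z => ∑ τ' ∈ G, pie K n g (i + 1) τ' z)
      ≤ ∑ S ∈ U, am2 (ex K M (i + 1) + 9) h n i S (fun z => ∑ τ' ∈ G, pie K n g (i + 1) τ' z) :=
        Finset.sum_le_sum fun S _ => am2_anti (by rw [ex_succ hi]; omega) h n i S _
    _ ≤ _ := hB (ex K M (i + 1)) K n ρ g hD i hi σ G hG U hU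
    _ ≤ _ := by
        refine mul_le_mul' (ENNReal.ofReal_le_ofReal ?_) le_rfl
        exact mul_le_mul_of_nonneg_right hle (by positivity)

/-- `StB2` -/
theorem stB2_of (hREP : StREP) (hORT : StORT) (hWS : StWS) (hWI : StWI) {cg : ℝ} (hcg : 1 ≤ cg) (hCG : ChildGau cg) : StB2 := by
  intro K h M C0 hh hM hC0
  choose Cf hCf hB using fun M' : ℕ => lem_B2 hREP hORT hWS hWI hcg hCG h M' hh C0 hC0
  refine ⟨∑ j ∈ Finset.range (K + 1), Cf (M + 10 * j), Finset.sum_nonneg fun j _ => hCf _, ?_⟩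
  intro n ρ g hD i θ hi σ G q hcap hG hq U r hU
  have hle : Cf (ex K M (i + 1)) ≤ ∑ j ∈ Finset.range (K + 1), Cf (M + 10 * j) :=
    Finset.single_le_sum (f := fun j => Cf (M + 10 * j)) (fun j _ => hCf _) (Finset.mem_range.2 (by omega : K - (i + 1) < K + 1))
  calc ∑ S ∈ U, am2 (ex K M i) h n i S (fun z => ∑ τ' ∈ G, pie K n g (i + 1) τ' z)
      ≤ ∑ S ∈ U, am2 (ex K M (i + 1) + 9) h n i S (fun z => ∑ τ' ∈ G, pie K n g (i + 1) τ' z) :=
        Finset.sum_le_sum fun S _ => am2_anti (by rw [ex_succ hi]; omega) h n i S _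
    _ ≤ _ := hB (ex K M (i + 1)) K n ρ g hD i θ hi σ G q hG hq U r hU
    _ ≤ _ := by
        refine mul_le_mul' (ENNReal.ofReal_le_ofReal ?_) le_rfl
        exact mul_le_mul_of_nonneg_right (mul_le_mul_of_nonneg_right hle (by positivity)) (by positivity)

end Vale.Agent.P106.AN275
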