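import Vale.Agent.P106.AN.Frq

/-! # P106 / AN275 : the local `L²` estimates on a box of the piece `σ`, abstract pieces (helper275) -/

open MeasureTheory Complex Set
open Vale.Agent.P122.C2 (Z2 fw fn par kids Cap)
open Vale.Agent.P106.W (Nd s0 tl Amp)
open scoped ENNReal NNReal FourierTransform

set_option linter.all false

namespace Vale.Agent.P106.AN275

open Vale.Agent.P106.AN

/-- gauge of the child plank of the piece `σ` -/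
def ChildGau (c : ℝ) : Prop := ∀ (h n i : ℕ), 1 ≤ h → ∀ (σ : Nd) (τ' : Z2), τ' ∈ kids n σ.b.τ → ∀ (θ R1 R2 : ℝ), 0 < R1 → 0 < R2 →
  R1 ≤ 2 ^ ((i + 1) * n) → R2 ≤ 2 ^ ((i + 1) * n) → ∀ p : E4, |p 0 - 2 ^ ((i + 1) * n) * (σ.b.o 0 : ℝ)| ≤ 2 ^ ((i + 1) * n) →
  |p 1 - 2 ^ ((i + 1) * n) * (σ.b.o 1 : ℝ)| ≤ 2 ^ ((i + 1) * n) → p 2 = 2 ^ (2 * i * n) * (σ.b.T : ℝ) →
  |nl (s0 n i σ.b.τ) p - 2 ^ (h * n) * (σ.w : ℝ)| ≤ 2 ^ (h * n) → ∀ x : E4,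
  gau 0 (2 ^ (h * n)) (2 ^ ((i + 1) * n)) (2 ^ ((i + 1) * n)) (2 ^ (2 * (i + 1) * n)) (s0 n (i + 1) τ')
    (x - bp h n (i + 1) (σ.ch n h i τ')) ≤ c * (1 + gau θ (2 ^ (h * n)) R1 R2 (2 ^ (2 * i * n)) (s0 n i σ.b.τ) (x - p))

theorem sg_tau {n : ℕ} {S σ : Nd} (h : S.sg n = σ) : S.b.τ = σ.b.τ := by rw [← h]; rfl
theorem sg_T {n : ℕ} {S σ : Nd} (h : S.sg n = σ) : S.b.T = σ.b.T := by rw [← h]; rfl
theorem sg_w {n : ℕ} {S σ : Nd} (h : S.sg n = σ) : S.w = σ.w := by rw [← h]; rfl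
theorem sg_o {n : ℕ} {S σ : Nd} (h : S.sg n = σ) (k : Fin 2) : S.b.o k / 2 ^ n = σ.b.o k := by rw [← h]; rfl

theorem bp_sg {h n i : ℕ} {S σ : Nd} (hS : S.sg n = σ) :
    bp h n i S = pt (2 ^ (h * n)) (2 ^ (i * n)) (2 ^ (2 * i * n) * (σ.b.T : ℝ)) (s0 n i σ.b.τ) S.b.o S.w := by
  unfold bp
  rw [sg_T hS, sg_tau hS]

/-- sum of the weights of the nodes in a box of `σ` -/
theorem sum_wN (hWS : StWS) (M : ℕ) (c : ℝ) (hc : 1 ≤ c) : ∃ C : ℝ, 0 ≤ C ∧ ∀ (h n i : ℕ) (σ : Nd) (θ R1 R2 : ℝ) (p : E4)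
    (U : Finset Nd), 2 ^ (i * n) ≤ R1 → 2 ^ (i * n) ≤ R2 → (∀ S ∈ U, S.sg n = σ) →
    (∀ S ∈ U, gau θ (2 ^ (h * n)) R1 R2 (2 ^ (2 * i * n)) (s0 n i σ.b.τ) (bp h n i S - p) ≤ c) →
    ∀ z, ∑ S ∈ U, wN (M + 4) h n i S z ≤
      ENNReal.ofReal C * wg M θ (2 ^ (h * n)) R1 R2 (2 ^ (2 * i * n)) (s0 n i σ.b.τ) (z - p) := by
  obtain ⟨C, hC, hW⟩ := hWS M c hc
  refine ⟨C, hC, ?_⟩
  intro h n i σ θ R1 R2 p U h1 h2 hU hg z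
  have hinj : Set.InjOn (fun S : Nd => (S.b.o, S.w)) (U : Set Nd) := by
    intro S hS S' hS' e
    have a := hU S hS
    have b := hU S' hS'
    have e1 : S.b.o = S'.b.o := (Prod.ext_iff.1 e).1
    have e2 : S.w = S'.w := (Prod.ext_iff.1 e).2
    ext1
    · ext1
      · rw [sg_tau a, sg_tau b]
      · exact e1
      · rw [sg_T a, sg_T b]
    · exact e2
  have p0 : (0:ℝ) < 2 ^ (h * n) := by positivity
  have p1 : (0:ℝ) < 2 ^ (i * n) := by positivity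
  have key := hW θ (2 ^ (h * n)) (2 ^ (i * n)) (2 ^ (2 * i * n)) (2 ^ (h * n)) R1 R2 (s0 n i σ.b.τ) (s0 n i σ.b.τ)
    (U.image fun S => (S.b.o, S.w)) (2 ^ (2 * i * n) * (σ.b.T : ℝ)) p (by positivity) (by positivity) (by positivity) le_rfl h1 h2 (by
      have : fw θ (fun j => s0 n i σ.b.τ j - s0 n i σ.b.τ j) = 0 := by unfold fw; simp
      rw [this, abs_zero, zero_mul]
      nlinarith) (by
      have : fn θ (fun j => s0 n i σ.b.τ j - s0 n i σ.b.τ j) = 0 := by unfold fn; simp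
      rw [this, abs_zero, zero_mul]
      nlinarith) (by rw [sub_self, abs_zero, zero_mul]; nlinarith) (by rw [sub_self, abs_zero, zero_mul]; nlinarith) (by
      rw [sub_self, sub_self]
      have : ((0:ℝ) ^ 2 + 0 ^ 2) * 2 ^ (2 * i * n) = 0 := by norm_num
      rw [this]
      nlinarith) (by
      intro q hq
      obtain ⟨S, hS, rfl⟩ := Finset.mem_image.1 hq
      have := hg S hS
      rwa [bp_sg (hU S hS)] at this) z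
  refine le_trans ?_ key
  rw [Finset.sum_image hinj]
  refine le_of_eq (Finset.sum_congr rfl fun S hS => ?_)
  unfold wN
  rw [bp_sg (hU S hS), sg_tau (hU S hS)]

/-- **local `L²` on a box** -/
theorem B_abs (hREP : StREP) (hORT : StORT) (hWS : StWS) (hWI : StWI) {cg : ℝ} (hcg : 1 ≤ cg) (hCG : ChildGau cg) (M : ℕ) (c : ℝ)
    (hc : 1 ≤ c) : ∃ C : ℝ, 0 ≤ C ∧
    ∀ (h n i : ℕ) (σ : Nd) (θ R1 R2 : ℝ) (p : E4) (U : Finset Nd) (G : Finset Z2) (γ : Z2 → E4 → ℂ) (m : ℕ), 1 ≤ h →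
      2 ^ (i * n) ≤ R1 → 2 ^ (i * n) ≤ R2 → R1 ≤ 2 ^ ((i + 1) * n) → R2 ≤ 2 ^ ((i + 1) * n) →
      |p 0 - 2 ^ ((i + 1) * n) * (σ.b.o 0 : ℝ)| ≤ 2 ^ ((i + 1) * n) → |p 1 - 2 ^ ((i + 1) * n) * (σ.b.o 1 : ℝ)| ≤ 2 ^ ((i + 1) * n) →
      p 2 = 2 ^ (2 * i * n) * (σ.b.T : ℝ) → |nl (s0 n i σ.b.τ) p - 2 ^ (h * n) * (σ.w : ℝ)| ≤ 2 ^ (h * n) →
      (∀ S ∈ U, S.sg n = σ) →
      (∀ S ∈ U, gau θ (2 ^ (h * n)) R1 R2 (2 ^ (2 * i * n)) (s0 n i σ.b.τ) (bp h n i S - p) ≤ c) →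
      G ⊆ kids n σ.b.τ → (∀ τ' ∈ G, Integrable (γ τ')) →
      (∀ τ' ∈ G, ∃ ξ0, ∀ ξ, γ τ' ξ ≠ 0 → Dual c 0 (2 ^ (h * n)) (2 ^ ((i + 1) * n)) (2 ^ ((i + 1) * n)) (2 ^ (2 * (i + 1) * n))
        (s0 n (i + 1) τ') (ξ - ξ0)) →
      (∀ k ∈ G, ∀ J ⊆ G, (∀ l ∈ J, ∃ ξ η, γ k ξ ≠ 0 ∧ γ l η ≠ 0 ∧ Dual 1 θ (2 ^ (h * n)) R1 R2 (2 ^ (2 * i * n)) (s0 n i σ.b.τ)
        (ξ - η)) → J.card ≤ m) →
      ∑ S ∈ U, am2 (M + 9) h n i S (fun z => ∑ τ' ∈ G, 𝓕⁻ (γ τ') z) ≤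
        ENNReal.ofReal (C * (2 ^ (h * n) * R1 * R2 * 2 ^ (2 * i * n)) * (2 ^ (h * n + 4 * i * n))⁻¹ * m) *
          ∑ τ' ∈ G, am2 M h n (i + 1) (σ.ch n h i τ') (𝓕⁻ (γ τ')) := by
  obtain ⟨C1, hC1, h1⟩ := sum_wN hWS (M + 5) c hc
  obtain ⟨C2, hC2, h2⟩ := hORT (M + 5)
  obtain ⟨C3, hC3, h3⟩ := transfer hREP hWI M c cg (by linarith) hcg
  refine ⟨C1 * C2 * C3, by positivity, ?_⟩
  intro h n i σ θ R1 R2 p U G γ m hh r1 r2 r1' r2' hp0 hp1 hp2 hpw hU hgU hG hint hdual hcard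
  have hi0 : (0:ℝ) < 2 ^ (i * n) := by positivity
  have hR1 : 0 < R1 := lt_of_lt_of_le hi0 r1
  have hR2 : 0 < R2 := lt_of_lt_of_le hi0 r2
  set R0 : ℝ := 2 ^ (h * n) with hR0
  have hR0' : 0 < R0 := by positivity
  set R3 : ℝ := 2 ^ (2 * i * n) with hR3
  have hR3' : 0 < R3 := by positivity
  set F : E4 → ℂ := fun z => ∑ τ' ∈ G, 𝓕⁻ (γ τ') z with hF
  have hFm : Measurable F := by
    apply Finset.measurable_fun_sum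
    intro τ' hτ'
    exact (continuous_inv (hint τ' hτ')).measurable
  have hFm2 : Measurable (fun z => ‖F z‖ₑ ^ 2) := hFm.enorm.pow_const 2
  have mwN : ∀ S : Nd, Measurable (wN (M + 9) h n i S) := fun S => measurable_wg_sub _ _ _ _ _ _ _ _
  -- step 1
  have s1 : ∑ S ∈ U, am2 (M + 9) h n i S F ≤
      ENNReal.ofReal (((2:ℝ) ^ (h * n + 4 * i * n))⁻¹) *
        ∫⁻ z, ‖F z‖ₑ ^ 2 * (ENNReal.ofReal C1 * wg (M + 5) θ R0 R1 R2 R3 (s0 n i σ.b.τ) (z - p)) := by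
    unfold am2
    have e0 : ∑ S ∈ U, ∫⁻ z, ‖F z‖ₑ ^ 2 * wN (M + 9) h n i S z = ∫⁻ z, ∑ S ∈ U, ‖F z‖ₑ ^ 2 * wN (M + 9) h n i S z :=
      (lintegral_finset_sum' (f := fun S z => ‖F z‖ₑ ^ 2 * wN (M + 9) h n i S z) U
        (fun S _ => (hFm2.mul (mwN S)).aemeasurable)).symm
    rw [← Finset.mul_sum, e0]
    refine mul_le_mul' le_rfl (lintegral_mono fun z => ?_)
    rw [← Finset.mul_sum]
    exact mul_le_mul' le_rfl (h1 h n i σ θ R1 R2 p U r1 r2 hU hgU z)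
  -- step 2
  have s2 : ∫⁻ z, ‖F z‖ₑ ^ 2 * (ENNReal.ofReal C1 * wg (M + 5) θ R0 R1 R2 R3 (s0 n i σ.b.τ) (z - p)) =
      ENNReal.ofReal C1 * ∫⁻ z, ‖F z‖ₑ ^ 2 * wg (M + 5) θ R0 R1 R2 R3 (s0 n i σ.b.τ) (z - p) := by
    rw [← lintegral_const_mul' _ _ ENNReal.ofReal_ne_top]
    refine lintegral_congr fun z => ?_
    ring
  have s3 := h2 Z2 G γ θ R0 R1 R2 R3 (s0 n i σ.b.τ) m hR0' hR1 hR2 hR3' hint hcard p
  -- step 3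
  have s4 : ∀ τ' ∈ G, ∫⁻ z, ‖𝓕⁻ (γ τ') z‖ₑ ^ 2 * wg (M + 5) θ R0 R1 R2 R3 (s0 n i σ.b.τ) (z - p) ≤
      ENNReal.ofReal (C3 * (R0 * R1 * R2 * R3)) * am2 M h n (i + 1) (σ.ch n h i τ') (𝓕⁻ (γ τ')) := by
    intro τ' hτ'
    obtain ⟨ξ0, hξ0⟩ := hdual τ' hτ'
    have := h3 0 R0 (2 ^ ((i + 1) * n)) (2 ^ ((i + 1) * n)) (2 ^ (2 * (i + 1) * n)) θ R0 R1 R2 R3 (s0 n i σ.b.τ) (s0 n (i + 1) τ')
      (bp h n (i + 1) (σ.ch n h i τ')) p ξ0 (γ τ') hR0' (by positivity) (by positivity) (by positivity) hR0' hR1 hR2 hR3'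
      (hint τ' hτ') hξ0 (fun x => hCG h n i hh σ τ' (hG hτ') θ R1 R2 hR1 hR2 r1' r2' p hp0 hp1 hp2 hpw x)
    refine this.trans (le_of_eq ?_)
    have e4 : (2:ℝ) ^ (h * n + 4 * (i + 1) * n) = R0 * 2 ^ ((i + 1) * n) * 2 ^ ((i + 1) * n) * 2 ^ (2 * (i + 1) * n) := by
      rw [hR0, ← pow_add, ← pow_add, ← pow_add]; congr 1; ring
    have q : 0 ≤ C3 * (R0 * R1 * R2 * R3) := by positivity
    unfold am2
    rw [e4, ENNReal.ofReal_mul q, mul_assoc]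
    rfl
  calc ∑ S ∈ U, am2 (M + 9) h n i S F
      ≤ ENNReal.ofReal (((2:ℝ) ^ (h * n + 4 * i * n))⁻¹) *
          (ENNReal.ofReal C1 * ∫⁻ z, ‖F z‖ₑ ^ 2 * wg (M + 5) θ R0 R1 R2 R3 (s0 n i σ.b.τ) (z - p)) := by
        rw [← s2]; exact s1
    _ ≤ ENNReal.ofReal (((2:ℝ) ^ (h * n + 4 * i * n))⁻¹) * (ENNReal.ofReal C1 * (ENNReal.ofReal (C2 * m) *
          ∑ τ' ∈ G, ENNReal.ofReal (C3 * (R0 * R1 * R2 * R3)) * am2 M h n (i + 1) (σ.ch n h i τ') (𝓕⁻ (γ τ')))) := by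
        gcongr
        refine s3.trans ?_
        gcongr with τ' hτ'
        exact s4 τ' hτ'
    _ = _ := by
        have e : C1 * C2 * C3 * (R0 * R1 * R2 * R3) * (2 ^ (h * n + 4 * i * n))⁻¹ * m =
          (2 ^ (h * n + 4 * i * n))⁻¹ * (C1 * ((C2 * m) * (C3 * (R0 * R1 * R2 * R3)))) := by ring
        have q1 : (0:ℝ) ≤ (2 ^ (h * n + 4 * i * n))⁻¹ := by positivity
        have q2 : (0:ℝ) ≤ C2 * m := by positivity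
        rw [e, ENNReal.ofReal_mul q1, ENNReal.ofReal_mul hC1, ENNReal.ofReal_mul q2, ← Finset.mul_sum]
        ring

end Vale.Agent.P106.AN275
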