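import Vale.Agent.P106.AN275.Fin
import Vale.Agent.P106.H84.Cone
import Vale.Agent.P106.AN.F837.StEof
import Vale.Agent.P106.W812.VolH

/-! # P106 / AN275 : the wave layer W4 without hypotheses : `W.StCORE N → W301.StE (2 + 2 / N)` (helper275) -/

set_option linter.all false

namespace Vale.Agent.P106.AN275

open Vale.Agent.P106.AN

theorem amp : StAMP := stAMP H84.stREP H84.stORT H84.stWI

theorem stE_of_core {N : ℝ} (hN : 1 ≤ N) (hCORE : Vale.Agent.P106.W.StCORE N) : Vale.Agent.P106.W301.StE (2 + 2 / N) :=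
  Top.stE_core hN amp W840.stWS hCORE fun K h C1 hK hC => Vale.Agent.P106.W.Vol.ktn_of_bes K h C1 hK hC

end Vale.Agent.P106.AN275
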